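import Vale.Agent.P219.GenK.AssemblyRows
import Vale.Agent.P219.Bend.Model
import Vale.Agent.P219.Gen.PairWeights
import Vale.Agent.P219.Six.Exists

/-!
# The sharp inequality against the space form from certificates

A certificate is used at finitely many radii only: each serves for all larger volumes whose profile
value stays below a fixed multiple of the area of its sphere.
-/

noncomputable section

open MeasureTheory Set Filter Topology Matrix
open scoped ENNReal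

namespace Vale.Agent.P219.CH.GenK

open Gen (mass radial cmean cmean_nonneg scaled conorm_dirCov_le dirCov)

variable {n : ℕ}

lemma continuous_modelArea (n : ℕ) (b : ℝ) : Continuous (modelArea n b) :=
  continuous_const.mul ((continuous_sn b).pow _)

/-- The mean curvature of the model sphere decreases in the radius. -/
lemma cosh_div_sn_anti {b : ℝ} (hb : 0 < b) {s t : ℝ} (hs : 0 < s) (hst : s ≤ t) :
    Real.cosh (b * t) / sn b t ≤ Real.cosh (b * s) / sn b s := by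
  have ht : 0 < t := hs.trans_le hst
  rw [div_le_div_iff₀ (Bend.sn_pos b ht) (Bend.sn_pos b hs)]
  have e : Real.cosh (b * s) * sn b t - Real.cosh (b * t) * sn b s =
      Real.sinh (b * t - b * s) / b := by
    rw [sn, sn, if_neg hb.ne', if_neg hb.ne', Real.sinh_sub]
    ring
  have h0 : 0 ≤ Real.sinh (b * t - b * s) / b :=
    div_nonneg (Real.sinh_nonneg_iff.2 (sub_nonneg.2 (mul_le_mul_of_nonneg_left hst hb.le))) hb.le
  linarith

lemma modelH_mul {b s : ℝ} (hb : 0 < b) :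
    modelH n (b * s) * b = ((n : ℝ) - 1) * (Real.cosh (b * s) / sn b s) := by
  rw [modelH, sn, if_neg hb.ne']
  field_simp

/-- The value clause at the model ball of radius `s` in curvature `-b ^ 2`. -/
lemma value_model [NeZero n] {b s ω Rd E β : ℝ} (hb : 0 < b) (hω : 0 ≤ ω) (hRd : 0 ≤ Rd)
    (hv : Real.sinh (b * s) ^ (2 * (n - 1)) + E * Real.sinh (b * s) ^ (n - 1) ≤
      β * ∫ t in (0 : ℝ)..b * s, Real.sinh t ^ (n - 1)) :
    Rd * b ^ (n - 1) * (ω * modelArea n b s) ^ 2 +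
        (n : ℝ) * ω * Rd * E * (ω * modelArea n b s) ≤
      (n : ℝ) * ω * Rd * β * b * (ω * modelVol n b s) := by
  obtain ⟨k, hk⟩ : ∃ k, k = n - 1 := ⟨_, rfl⟩
  rw [← hk] at hv ⊢
  obtain ⟨S, hS⟩ : ∃ S, S = ∫ t in (0 : ℝ)..b * s, Real.sinh t ^ k := ⟨_, rfl⟩
  rw [← hS] at hv
  have hbk : 0 < b ^ k := pow_pos hb k
  have eA : modelArea n b s = (n : ℝ) * Real.sinh (b * s) ^ k / b ^ k := by
    rw [modelArea, ← hk, sn, if_neg hb.ne', div_pow, mul_div_assoc]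
  have eV : b * modelVol n b s = (n : ℝ) * S / b ^ k := by
    have h1 : ∫ t in (0 : ℝ)..s, sn b t ^ k = (b⁻¹ * S) / b ^ k := by
      rw [hS]
      simp only [sn, if_neg hb.ne', div_pow, intervalIntegral.integral_div]
      rw [intervalIntegral.integral_comp_mul_left (fun t => Real.sinh t ^ k) hb.ne', smul_eq_mul,
        mul_zero]
    rw [modelVol, ← hk, h1]
    field_simp
  have hc : 0 ≤ Rd * (n : ℝ) ^ 2 * ω ^ 2 / b ^ k := by positivity
  have h2 := mul_le_mul_of_nonneg_left hv hc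
  rw [show (n : ℝ) * ω * Rd * β * b * (ω * modelVol n b s) =
      (n : ℝ) * ω * Rd * β * ω * (b * modelVol n b s) by ring, eV, eA]
  refine le_trans (le_of_eq ?_) (h2.trans (le_of_eq ?_))
  · rw [mul_comm 2 k, pow_mul]
    field_simp
  · field_simp

/-- The closing inequality, with the errors collected. -/
lemma no_almost_minimiser {M Rd E β b bk V Vs P As τ η g ε κ I : ℝ} (hM : 0 ≤ M) (hRd : 0 ≤ Rd)
    (hbk : 0 ≤ bk) (hE : 0 ≤ E) (hβ : 0 ≤ β) (hb : 0 ≤ b) (hτ0 : 0 ≤ τ) (hτ1 : τ ≤ 1)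
    (hAs : 0 ≤ As) (hVs : Vs ≤ V) (hV : 0 ≤ V) (hP0 : 0 ≤ P) (hP : P ≤ τ * As) (hη : 0 < η)
    (hη2 : η ≤ 1) (hg : 0 ≤ g) (hval : Rd * bk * As ^ 2 + M * E * As ≤ M * β * b * Vs)
    (hpair : M * (2 * β * b * ((1 - 2 * η) ^ 2 * (V - g / η)) - (2 * E + ε) * P) ≤ Rd * bk * I)
    (hI : I ≤ (2 + ε) * P ^ 2 + 2 * (κ * P)) :
    2 * (1 - τ) * (M * β * b * Vs) ≤ 8 * M * β * b * η * V + 2 * M * β * b * g / η +
      ε * (M * P + Rd * bk * P ^ 2) + 2 * κ * (Rd * bk * P) := by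
  have hc : 0 ≤ Rd * bk := mul_nonneg hRd hbk
  have hME : 0 ≤ M * E := mul_nonneg hM hE
  have h1 : Rd * bk * P ^ 2 + M * E * P ≤ τ * (M * β * b * Vs) := by
    have hPA : P ^ 2 ≤ τ * As ^ 2 := by
      calc P ^ 2 ≤ (τ * As) ^ 2 := pow_le_pow_left₀ hP0 hP 2
        _ = τ * (τ * As ^ 2) := by ring
        _ ≤ τ * As ^ 2 := mul_le_mul_of_nonneg_left (mul_le_of_le_one_left (sq_nonneg _) hτ1) hτ0
    calc Rd * bk * P ^ 2 + M * E * P ≤ Rd * bk * (τ * As ^ 2) + M * E * (τ * As) := by gcongr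
      _ = τ * (Rd * bk * As ^ 2 + M * E * As) := by ring
      _ ≤ _ := mul_le_mul_of_nonneg_left hval hτ0
  have h2 : M * β * b * Vs ≤ M * β * b * V := by gcongr
  have h3 : V - 4 * η * V - g / η ≤ (1 - 2 * η) ^ 2 * (V - g / η) := by
    nlinarith [mul_nonneg (mul_nonneg hη.le hη.le) hV,
      mul_nonneg (mul_nonneg hη.le (sub_nonneg.2 hη2)) (div_nonneg hg hη.le)]
  have h4 := mul_le_mul_of_nonneg_left h3 (by positivity : 0 ≤ 2 * M * β * b)
  have h5 := mul_le_mul_of_nonneg_left hI hc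
  ring_nf at h1 h2 h4 h5 hpair ⊢
  linarith

/-- A row at a smaller mean curvature dominates the rescaled row. -/
lemma rowK_integral_le {G : (Fin n → ℝ) → Matrix (Fin n) (Fin n) ℝ}
    {D : (Fin n → ℝ) → (Fin n → ℝ) → ℝ} {u : (Fin n → ℝ) → ℝ} {w : ℝ × ℝ → ℝ} {o x : Fin n → ℝ}
    {R b ρ h₁ : ℝ} (h : IsCH G D) (hb : 0 ≤ b) (hw : ContDiff ℝ 1 w)
    (hwpos : ∀ p q, 0 ≤ p → q ^ 2 ≤ 2 * p → 0 < scaled w b (p, q)) (hu : Comp {y | D o y ≤ R} u)
    (hx : D o x ≤ R) (hh : h₁ ≤ modelH n ρ * b)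
    (hi : Integrable (fun y => kern n b h₁ (scaled w b) (D x y)
      (Dir.side G D x (dirCov G u x) y) (Dir.scos G D u x y)) (Sharp.pm G u)) :
    ∫ y, rowK G D u w b ρ x y ∂Sharp.pm G u ≤ ∫ y, kern n b h₁ (scaled w b) (D x y)
      (Dir.side G D x (dirCov G u x) y) (Dir.scos G D u x y) ∂Sharp.pm G u := by
  have hpt : ∀ y, rowK G D u w b ρ x y ≤ kern n b h₁ (scaled w b) (D x y)
      (Dir.side G D x (dirCov G u x) y) (Dir.scos G D u x y) := fun y => by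
    rw [← rowK_eq h hw hb ρ u x y]
    exact kern_anti hh (hwpos _ _ (h.dist_nonneg x y)
      (Dir.sq_side_le h (conorm_dirCov_le h u x) y)).le
  have hK := h.proper o R
  have := Sharp.isFiniteMeasure_pm h hK hu
  obtain ⟨B, hB⟩ := (hK.prod hK).bddAbove_image h.continuous_D.continuousOn
  obtain ⟨B', hB'⟩ : ∃ B', B' = max B 0 := ⟨_, rfl⟩
  have hle : ∀ y, D o y ≤ R → D x y ≤ B' := fun y hy =>
    (hB ⟨(x, y), ⟨hx, hy⟩, rfl⟩).trans (hB' ▸ le_max_left _ _)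
  obtain ⟨C, hC⟩ := ((isCompact_Icc (a := (0 : ℝ)) (b := b ^ 2 * B')).prod
    ((isCompact_Icc (a := -(b * Real.sqrt (2 * B'))) (b := b * Real.sqrt (2 * B'))).prod
      (isCompact_Icc (a := (-1 : ℝ)) (b := 1)))).exists_bound_of_continuousOn
    ((continuous_kern (n := n) hw (modelH n ρ)).mono fun q hq => hq.1.1)
  have hDm : Measurable fun y => D x y := (h.contDiff_D x).continuous.measurable
  have hms := Gen.measurable_scos h hu.1
  have hd0 := hms.comp (measurable_prodMk_left (β := Fin n → ℝ) (x := x))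
  have hc0 := hms.comp (measurable_prodMk_right (α := Fin n → ℝ) (y := x))
  have hd : Measurable fun y => Dir.scos G D u x y := by simpa only [Function.comp_def] using hd0
  have hc : Measurable fun y => Dir.scos G D u y x := by simpa only [Function.comp_def] using hc0
  have hq : Measurable fun y => b * (Dir.scos G D u y x * Real.sqrt (2 * D x y)) :=
    (hc.fun_mul (hDm.const_mul 2).sqrt).const_mul b
  have hk := measurable_kern (n := n) hw (modelH n ρ)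
  have h3 := hk.comp ((hDm.const_mul (b ^ 2)).prodMk (hq.prodMk hd))
  have hm : Measurable fun y => rowK G D u w b ρ x y := by
    simpa only [rowK, Function.comp_def] using h3
  refine integral_mono_ae (Integrable.of_bound hm.aestronglyMeasurable C ?_) hi
    (Eventually.of_forall hpt)
  refine (Sharp.ae_mem_pm h hK hu).mono fun y hy => hC (_, _, _) ?_
  refine ⟨⟨mul_nonneg (sq_nonneg b) (h.dist_nonneg x y),
    mul_le_mul_of_nonneg_left (hle y hy) (sq_nonneg b)⟩, abs_le.1 ?_, Gen.scos_mem_Icc h u x y⟩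
  rw [abs_mul, abs_mul, abs_of_nonneg hb, abs_of_nonneg (Real.sqrt_nonneg _)]
  exact mul_le_mul_of_nonneg_left ((mul_le_of_le_one_left (Real.sqrt_nonneg _)
    (Dir.scos_mem h u y x)).trans (Real.sqrt_le_sqrt (mul_le_mul_of_nonneg_left (hle y hy)
      two_pos.le))) hb

/-- Almost minimisers of volume at least that of the ball of radius `s` have perimeter above any
smaller multiple of its area. -/
theorem eventually_not_below [NeZero n] (hn : 2 ≤ n) (hRow : RowPin n) (hmom : Gen.MomentPin n)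
    (hPair : PairPin n) {ρ₀ : ℝ} (hC : Cert n ρ₀)
    {G : (Fin n → ℝ) → Matrix (Fin n) (Fin n) ℝ} {D : (Fin n → ℝ) → (Fin n → ℝ) → ℝ}
    (h : IsCH G D) {b : ℝ} (hb : 0 < b) (hbend : Bend.BendCH G D b)
    {o : Fin n → ℝ} {R P₀ v₀ M θ τ : ℝ} {Φ hs : ℝ → ℝ} (hR : 0 < R) (hP₀ : 0 ≤ P₀) (hv₀ : 0 < v₀)
    (hΦ : Bend.IsProfile Φ hs) (hM : 0 ≤ M) (hθ : 1 < θ) (hτ0 : 0 ≤ τ) (hτ1 : τ < 1)
    {s : ℝ} (hs0 : 0 < s) (hsρ : b * s ≤ ρ₀) :
    ∀ᶠ δ in 𝓝[>] (0 : ℝ), ∀ u, Bend.NearMinP G D o R P₀ v₀ Φ M δ u →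
      ¬(Bend.unitBall n * modelVol n b s ≤ vol G u ∧
        θ * hs (vol G u) ≤ modelH n (b * s) * b ∧
        per G u ≤ τ * (Bend.unitBall n * modelArea n b s)) := by
  have hn1 : 1 ≤ n := by omega
  obtain ⟨e, he⟩ := Six.exists_isExp h
  obtain ⟨hm0, hmrad, -⟩ := hmom hn
  obtain ⟨Mm, hMm⟩ : ∃ Mm, Mm = mass n := ⟨_, rfl⟩
  obtain ⟨Rd, hRd⟩ : ∃ Rd, Rd = radial n := ⟨_, rfl⟩
  obtain ⟨ω, hω⟩ : ∃ ω, ω = Bend.unitBall n := ⟨_, rfl⟩
  rw [← hMm, ← hω, ← hRd] at hmrad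
  rw [← hω]
  have hω0 : 0 < ω := hω ▸ Bend.unitBall_pos hn1
  have hM0 : 0 < Mm := hMm ▸ hm0
  have hRd0 : 0 ≤ Rd := hRd ▸ setIntegral_nonneg measurableSet_Ioi fun r hr =>
    mul_nonneg (pow_nonneg (le_of_lt hr) _) (Real.exp_pos _).le
  obtain ⟨a, β, hcert⟩ := hC (b * s) ⟨mul_pos hb hs0, hsρ⟩
  obtain ⟨E, hE⟩ : ∃ E, E = cmean n fun c => -a c := ⟨_, rfl⟩
  have hE0 : 0 ≤ E := hE ▸ cmean_nonneg hm0 fun c hc => by linarith [hcert.a_nonpos c hc]
  have hval := value_model (n := n) (ω := ω) (Rd := Rd) hb hω0.le hRd0 hcert.value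
  rw [← hmrad, ← hE] at hval
  obtain ⟨As, hAs⟩ : ∃ As, As = ω * modelArea n b s := ⟨_, rfl⟩
  obtain ⟨Vs, hVs⟩ : ∃ Vs, Vs = ω * modelVol n b s := ⟨_, rfl⟩
  rw [← hAs, ← hVs] at hval
  rw [← hAs, ← hVs]
  have hAs0 : 0 < As := by
    rw [hAs, modelArea]
    have := Bend.sn_pos b hs0
    have : (0 : ℝ) < n := by exact_mod_cast hn1
    positivity
  obtain ⟨bk, hbk⟩ : ∃ bk, bk = b ^ (n - 1) := ⟨_, rfl⟩
  rw [← hbk] at hval
  have hbk0 : 0 < bk := hbk ▸ pow_pos hb _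
  have hVs0 : 0 < Vs := by
    rw [hVs]
    exact mul_pos hω0 ((pow_pos hs0 n).trans_le (pow_le_modelVol hn1 b hs0.le))
  have hRd1 : 0 < Rd := by
    refine lt_of_le_of_ne hRd0 fun h0 => ?_
    rw [← h0, mul_zero] at hmrad
    linarith
  have hpos : 0 < Mm * β * b * Vs := lt_of_lt_of_le (by positivity) hval
  have hβ0 := hcert.beta_nonneg
  obtain ⟨μ, hμ⟩ : ∃ μ, μ = 2 * (1 - τ) * (Mm * β * b * Vs) := ⟨_, rfl⟩
  have hμ0 : 0 < μ := by rw [hμ]; have : 0 < 1 - τ := sub_pos.2 hτ1; positivity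
  have hK := h.proper o R
  obtain ⟨VK, hVK⟩ : ∃ VK, VK = volG G {y | D o y ≤ R} := ⟨_, rfl⟩
  obtain ⟨B, hB⟩ := (hK.prod hK).bddAbove_image h.continuous_D.continuousOn
  obtain ⟨T, hT⟩ : ∃ T : ℝ, T = b * Real.sqrt (2 * max B 0) + 1 := ⟨_, rfl⟩
  have hT0 : 0 < T := by rw [hT]; positivity
  obtain ⟨ε, hε⟩ : ∃ ε : ℝ, ε = μ / (5 * (Mm * P₀ + Rd * bk * P₀ ^ 2 + 1)) := ⟨_, rfl⟩
  have hε0 : 0 < ε := by rw [hε]; positivity
  obtain ⟨w, hw, hwpos, hwP, hwF⟩ := hcert.weight ε T hε0 hT0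
  obtain ⟨κ, hκ⟩ : ∃ κ : ℝ, κ = μ / (10 * (Rd * bk * P₀ + 1)) := ⟨_, rfl⟩
  have hκ0 : 0 < κ := by rw [hκ]; positivity
  obtain ⟨η, hη⟩ : ∃ η : ℝ, η = min (1 / 4) (μ / (5 * (8 * Mm * β * b * |VK| + 1))) := ⟨_, rfl⟩
  have hη0 : 0 < η := hη ▸ lt_min (by norm_num) (by positivity)
  have hws : ContDiff ℝ 1 (scaled w b) :=
    hw.comp (by fun_prop : ContDiff ℝ 1 fun z : ℝ × ℝ => (b ^ 2 * z.1, b * z.2))
  have hwspos : ∀ p q, 0 ≤ p → q ^ 2 ≤ 2 * p → 0 < scaled w b (p, q) := fun p q hp hq =>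
    hwpos _ _ (by positivity) (by
      calc (b * q) ^ 2 = b ^ 2 * q ^ 2 := mul_pow b q 2
        _ ≤ b ^ 2 * (2 * p) := by gcongr
        _ = _ := by ring)
  filter_upwards [hRow hn G D h b hbend o R P₀ v₀ M θ κ Φ hs hR hP₀ hv₀ hΦ hM hθ hκ0
      (scaled w b) hws hwspos,
    (eventually_le_nhds (by positivity : (0 : ℝ) < μ * η / (5 * (2 * Mm * β * b + 1)))).filter_mono
      nhdsWithin_le_nhds] with δ hrow hδ
  rintro u hnear ⟨hV, hh, hP⟩
  obtain ⟨hu, hPu, -, hgu, -⟩ := id hnear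
  have hr : ∀ x, D o x ≤ R → ∫ y, rowK G D u w b (b * s) x y ∂Sharp.pm G u ≤ κ := fun x hx => by
    obtain ⟨hi, hle⟩ := hrow u hnear x (dirCov G u x) hx (conorm_dirCov_le h u x)
    exact (rowK_integral_le h hb.le hw hwspos hu hx hh hi).trans hle
  have hI := pair_le_rows h (ε := ε) hw hu hb.le hr
  have hTb : ∀ x y, D o x ≤ R → D o y ≤ R → b * Real.sqrt (2 * D x y) ≤ T := fun x y hx hy => by
    rw [hT]
    have := (hB ⟨(x, y), ⟨hx, hy⟩, rfl⟩).trans (le_max_left B 0)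
    exact (mul_le_mul_of_nonneg_left (Real.sqrt_le_sqrt (by linarith)) hb.le).trans
      (le_add_of_nonneg_right zero_le_one)
  have hp := hPair hn (b * s) a β hcert G D e b h hb hbend he o R η ε T w u hη0
    ((hη ▸ min_le_left _ _).trans_lt (by norm_num)) hε0 hTb hw hwP hwF hu
  rw [← hMm, ← hRd, ← hE, ← hbk] at hp
  have hg := h.gap_nonneg (G := G) hu.2.2
  have hP0' := h.per_nonneg u
  have hV0 : 0 ≤ vol G u := hVs0.le.trans hV
  have key := no_almost_minimiser hM0.le hRd0 hbk0.le hE0 hβ0 hb.le hτ0 hτ1.le hAs0.le hV hV0 hP0'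
    hP hη0 ((hη ▸ min_le_left _ _).trans (by norm_num)) hg hval hp hI
  rw [← hμ] at key
  have h1 : 8 * Mm * β * b * η * vol G u ≤ μ / 5 := by
    have hle : vol G u ≤ |VK| := (hVK ▸ h.vol_le hK hu).trans (le_abs_self _)
    calc 8 * Mm * β * b * η * vol G u ≤ 8 * Mm * β * b * η * |VK| := by gcongr
      _ = 8 * Mm * β * b * |VK| * η := by ring
      _ ≤ (8 * Mm * β * b * |VK| + 1) * (μ / (5 * (8 * Mm * β * b * |VK| + 1))) :=
          mul_le_mul (by linarith) (hη ▸ min_le_right _ _) hη0.le (by positivity)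
      _ = μ / 5 := by field_simp
  have h2 : 2 * Mm * β * b * gap G u / η ≤ μ / 5 := by
    rw [div_le_iff₀ hη0]
    calc 2 * Mm * β * b * gap G u
        ≤ (2 * Mm * β * b + 1) * (μ * η / (5 * (2 * Mm * β * b + 1))) :=
          mul_le_mul (by linarith) (hgu.trans hδ) hg (by positivity)
      _ = μ / 5 * η := by field_simp
  have h3 : ε * (Mm * per G u + Rd * bk * per G u ^ 2) ≤ μ / 5 := by
    calc ε * (Mm * per G u + Rd * bk * per G u ^ 2)
        ≤ ε * (Mm * P₀ + Rd * bk * P₀ ^ 2 + 1) := by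
          refine mul_le_mul_of_nonneg_left ?_ hε0.le
          have : Mm * per G u + Rd * bk * per G u ^ 2 ≤ Mm * P₀ + Rd * bk * P₀ ^ 2 := by gcongr
          linarith
      _ = μ / 5 := by rw [hε]; field_simp
  have h4 : 2 * κ * (Rd * bk * per G u) ≤ μ / 5 := by
    calc 2 * κ * (Rd * bk * per G u) ≤ 2 * κ * (Rd * bk * P₀ + 1) := by
          refine mul_le_mul_of_nonneg_left ?_ (by positivity)
          have : Rd * bk * per G u ≤ Rd * bk * P₀ := by gcongr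
          linarith
      _ = μ / 5 := by rw [hκ]; field_simp; ring
  linarith

/-- The assembly. -/
theorem assembly (n : ℕ) [NeZero n] : AssemblyPin n := by
  intro hn hMin hRow hmom hPair hProf ρ₀ _ hC G D h b hb hbend Ω A hΩ hΩb hA r hr hrρ hvol
  by_contra hlt
  rw [not_le] at hlt
  have hn2 : 2 ≤ n := by omega
  have hn1 : 1 ≤ n := by omega
  have hA0 : 0 ≤ A := by
    obtain ⟨S, v, -, -, -, hA'⟩ := hA
    exact le_trans (h.per_nonneg (v 0)) (hA' 0)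
  obtain ⟨ω, hω⟩ : ∃ ω, ω = Bend.unitBall n := ⟨_, rfl⟩
  rw [← hω] at hvol hlt
  have hω0 : 0 < ω := hω ▸ Bend.unitBall_pos hn1
  have hr0 : 0 < r := by
    refine hr.lt_of_ne fun h0 => ?_
    subst h0
    simp [modelArea, sn_zero, zero_pow (show n - 1 ≠ 0 by omega)] at hlt
    linarith
  obtain ⟨V₀, hV₀⟩ : ∃ V₀, V₀ = volG G Ω := ⟨_, rfl⟩
  rw [← hV₀] at hvol
  have hV₀0 : 0 < V₀ :=
    hvol ▸ mul_pos hω0 ((pow_pos hr0 n).trans_le (pow_le_modelVol hn1 b hr))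
  have hrad : Bend.modelRad n b (V₀ / ω) = r := by
    rw [← hvol, mul_div_cancel_left₀ _ hω0.ne', Bend.modelRad_modelVol hn1 b hr]
  obtain ⟨M₀, hM₀⟩ : ∃ M₀, M₀ = ω * modelArea n b r := ⟨_, rfl⟩
  rw [← hM₀] at hlt
  have hM₀0 : 0 < M₀ := hA0.trans_lt hlt
  obtain ⟨l, hl1, hl2⟩ := exists_between ((div_lt_one hM₀0).2 hlt)
  have hl : 0 < l := lt_of_le_of_lt (div_nonneg hA0 hM₀0.le) hl1
  obtain ⟨τ, hτ⟩ : ∃ τ, τ = (1 + l) / 2 := ⟨_, rfl⟩
  have hτl : l < τ := by rw [hτ]; linarith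
  have hτ1 : τ < 1 := by rw [hτ]; linarith
  have hτ0 : 0 < τ := hl.trans hτl
  obtain ⟨Φ, hs, hΦ, hΦ0, hs0, hΦ1⟩ := hProf hn2 b l V₀ ((τ - l) * M₀) hb hl hV₀0
    (mul_pos (sub_pos.2 hτl) hM₀0)
  have hprof : ∀ V, Bend.modelProfile n b l V = l * (ω * modelArea n b (Bend.modelRad n b (V / ω))) :=
    fun V => by rw [Bend.modelProfile, ← hω]
  obtain ⟨R, M, P₀, v₀, hR, hM, hP₀, hv₀, hmin⟩ := hMin hn2 G D h Ω A Φ hs hΩ hΩb hA hΦ (by
    rw [← hV₀, hΦ0 V₀ hV₀0.le le_rfl, hprof, hrad, ← hM₀]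
    exact (div_lt_iff₀ hM₀0).1 hl1) 0
  obtain ⟨r₁, hr₁⟩ : ∃ r₁, r₁ = Bend.modelRad n b (min v₀ V₀ / ω) := ⟨_, rfl⟩
  have hr₁0 : 0 < r₁ := hr₁ ▸ Bend.modelRad_pos hn1 b (div_pos (lt_min hv₀ hV₀0) hω0)
  have harea : ∀ {s}, 0 < s → 0 < ω * modelArea n b s := fun {s} hs' => by
    rw [modelArea]
    have := Bend.sn_pos b hs'
    have : (0 : ℝ) < n := by exact_mod_cast hn1
    positivity
  obtain ⟨F, hF⟩ := (isCompact_Icc (a := r₁) (b := r)).elim_finite_subcover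
    (fun s : ↥(Ioc (0 : ℝ) r) => {t : ℝ | (s : ℝ) < t ∧
      l * (ω * modelArea n b t) < τ * (ω * modelArea n b (s : ℝ))})
    (fun s => (isOpen_lt continuous_const continuous_id).inter (isOpen_lt
      (continuous_const.mul (continuous_const.mul (continuous_modelArea n b))) continuous_const))
    (fun t ht => by
      have hc : Continuous fun s => τ * (ω * modelArea n b s) :=
        continuous_const.mul (continuous_const.mul (continuous_modelArea n b))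
      have ht0 : 0 < t := hr₁0.trans_le ht.1
      obtain ⟨s, ⟨h1, h2⟩, h3⟩ := ((((hc.tendsto t).eventually (eventually_gt_nhds
        (mul_lt_mul_of_pos_right hτl (harea ht0)))).and (eventually_gt_nhds ht0)).filter_mono
          nhdsWithin_le_nhds |>.and
            (self_mem_nhdsWithin : ∀ᶠ s in 𝓝[<] t, s ∈ Iio t)).exists
      exact mem_iUnion.2 ⟨⟨s, h2, h3.le.trans ht.2⟩, h3, h1⟩)
  have hθ : 1 < 1 / l := (one_lt_div hl).2 hl2
  have hev : ∀ᶠ δ in 𝓝[>] (0 : ℝ), ∀ s ∈ insert (⟨r, hr0, le_rfl⟩ : ↥(Ioc (0 : ℝ) r)) F,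
      ∀ u, Bend.NearMinP G D 0 R P₀ v₀ Φ M δ u →
      ¬(Bend.unitBall n * modelVol n b (s : ℝ) ≤ vol G u ∧
        1 / l * hs (vol G u) ≤ modelH n (b * s) * b ∧
        per G u ≤ τ * (Bend.unitBall n * modelArea n b (s : ℝ))) :=
    (eventually_all_finset _).2 fun s _ =>
      eventually_not_below hn2 hRow hmom hPair hC h hb hbend hR hP₀ hv₀ hΦ hM hθ hτ0.le hτ1 s.2.1
        ((mul_le_mul_of_nonneg_left s.2.2 hb.le).trans hrρ)
  obtain ⟨δ, hδev, hδ⟩ :=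
    (hev.and (self_mem_nhdsWithin : ∀ᶠ d in 𝓝[>] (0 : ℝ), d ∈ Ioi (0 : ℝ))).exists
  obtain ⟨u, hu, hPV⟩ := hmin δ hδ
  have hVu : v₀ ≤ vol G u := hu.2.2.1
  obtain ⟨V, hV⟩ : ∃ V, V = vol G u := ⟨_, rfl⟩
  rw [← hV] at hVu hPV
  have hV0 : 0 < V := hv₀.trans_le hVu
  have hslope : ∀ W, Bend.modelSlope n b l W =
      l * (((n : ℝ) - 1) * (Real.cosh (b * Bend.modelRad n b (W / ω)) /
        sn b (Bend.modelRad n b (W / ω)))) := fun W => by
    rw [Bend.modelSlope, ← hω, mul_div_assoc]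
  have hn0 : (0 : ℝ) ≤ (n : ℝ) - 1 := by
    have : (1 : ℝ) ≤ n := by exact_mod_cast hn1
    linarith
  rcases le_or_gt V V₀ with hcase | hcase
  · obtain ⟨t, ht⟩ : ∃ t, t = Bend.modelRad n b (V / ω) := ⟨_, rfl⟩
    have ht0 : 0 < t := ht ▸ Bend.modelRad_pos hn1 b (div_pos hV0 hω0)
    have htmem : t ∈ Icc r₁ r := by
      refine ⟨?_, ?_⟩
      · rw [ht, hr₁]
        exact Bend.modelRad_mono hn1 b (div_pos (lt_min hv₀ hV₀0) hω0).le
          (div_le_div_of_nonneg_right ((min_le_left _ _).trans hVu) hω0.le)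
      · rw [ht, ← hrad]
        exact Bend.modelRad_mono hn1 b (div_nonneg hV0.le hω0.le)
          (div_le_div_of_nonneg_right hcase hω0.le)
    obtain ⟨s, hsF, hst, hsa⟩ : ∃ s ∈ F, (s : ℝ) < t ∧
        l * (ω * modelArea n b t) < τ * (ω * modelArea n b (s : ℝ)) := by
      obtain ⟨s, hs1, hs2⟩ := mem_iUnion₂.1 (hF htmem)
      exact ⟨s, hs1, hs2⟩
    refine hδev s (Finset.mem_insert_of_mem hsF) u hu ⟨?_, ?_, ?_⟩
    · rw [← hV, ← hω]
      calc ω * modelVol n b (s : ℝ) ≤ ω * modelVol n b t := mul_le_mul_of_nonneg_left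
            (((strictMonoOn_modelVol hn1 b).le_iff_le s.2.1.le ht0.le).2 hst.le) hω0.le
        _ = V := by
          rw [ht, (Bend.modelRad_spec hn1 b (div_nonneg hV0.le hω0.le)).2,
            mul_div_cancel₀ _ hω0.ne']
    · rw [← hV, hs0 V hV0 hcase, hslope, ← ht, modelH_mul hb, ← mul_assoc,
        one_div_mul_cancel hl.ne', one_mul]
      exact mul_le_mul_of_nonneg_left (cosh_div_sn_anti hb s.2.1 hst.le) hn0
    · rw [← hω]
      refine hPV.trans ?_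
      rw [hΦ0 V hV0.le hcase, hprof, ← ht]
      exact hsa.le
  · obtain ⟨h1, h2⟩ := hΦ1 V hcase.le
    refine hδev _ (Finset.mem_insert_self _ F) u hu ⟨?_, ?_, ?_⟩
    · simp only [← hV, ← hω, hvol]
      exact hcase.le
    · simp only [← hV]
      refine (mul_le_mul_of_nonneg_left h2 (by positivity)).trans (le_of_eq ?_)
      rw [hslope, hrad, modelH_mul hb, ← mul_assoc, one_div_mul_cancel hl.ne', one_mul]
    · simp only [← hω, ← hM₀]
      refine hPV.trans (h1.trans (le_of_eq ?_))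
      rw [hprof, hrad, ← hM₀]
      ring

end Vale.Agent.P219.CH.GenK
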