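import Vale.Agent.P219.GenK.PairParts
import Vale.Agent.P219.Gen.AssemblyRows

/-!
# The symmetrised kernel is the sum of two rows, curvature at most `-b ^ 2`
-/

noncomputable section

open MeasureTheory Set Filter Topology Matrix
open scoped ENNReal

namespace Vale.Agent.P219.CH.GenK

open Gen (dirCov scaled conorm_dirCov_le side_dirCov fderiv_scaled scos_mem_Icc measurable_scos)

variable {n : ℕ} {G : (Fin n → ℝ) → Matrix (Fin n) (Fin n) ℝ}
  {D : (Fin n → ℝ) → (Fin n → ℝ) → ℝ} {u : (Fin n → ℝ) → ℝ} {w : ℝ × ℝ → ℝ}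

lemma cfac_scale (b a : ℝ) : Bend.cfac b a = Bend.cfac 1 (b ^ 2 * a) := by
  simp only [Bend.cfac, one_pow, mul_one, mul_assoc]

lemma sfac_scale (b a : ℝ) : Bend.sfac b a = Bend.sfac 1 (b ^ 2 * a) := by
  simp only [Bend.sfac, one_pow, mul_one, mul_assoc]

/-- The integrand of the row of the weight at scale `b` is the kernel in curvature `-1`. -/
lemma kern_scaled (hw : ContDiff ℝ 1 w) {b : ℝ} (hb : 0 ≤ b) (h a σ d : ℝ) :
    kern n b (h * b) (scaled w b) a σ d = kern n 1 h w (b ^ 2 * a) (b * σ) d := by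
  have ea : ((b ^ 2 * 1, b * 0) : ℝ × ℝ) = b ^ 2 • ((1, 0) : ℝ × ℝ) := by simp
  have eb : ((b ^ 2 * 0, b * 1) : ℝ × ℝ) = b • ((0, 1) : ℝ × ℝ) := by simp
  have e1 : Dir.wa (scaled w b) (a, σ) = b ^ 2 * Dir.wa w (b ^ 2 * a, b * σ) := by
    simp only [Dir.wa, fderiv_scaled hw]
    rw [ea, map_smul, smul_eq_mul]
  have e2 : Dir.wb (scaled w b) (a, σ) = b * Dir.wb w (b ^ 2 * a, b * σ) := by
    simp only [Dir.wb, fderiv_scaled hw]
    rw [eb, map_smul, smul_eq_mul]
  have e3 : Real.sqrt (2 * (b ^ 2 * a) - (b * σ) ^ 2) = b * Real.sqrt (2 * a - σ ^ 2) := by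
    rw [show 2 * (b ^ 2 * a) - (b * σ) ^ 2 = b ^ 2 * (2 * a - σ ^ 2) by ring,
      Real.sqrt_mul (sq_nonneg b), Real.sqrt_sq hb]
  have e4 : Real.sqrt (2 * (b ^ 2 * a)) = b * Real.sqrt (2 * a) := by
    rw [show 2 * (b ^ 2 * a) = b ^ 2 * (2 * a) by ring, Real.sqrt_mul (sq_nonneg b),
      Real.sqrt_sq hb]
  simp only [kern, e1, e2, e3, e4, abs_mul, abs_of_nonneg hb, scaled, cfac_scale b, sfac_scale b]
  ring

/-- The kernel decreases in the mean curvature. -/
lemma kern_anti {b h h' a σ d : ℝ} (hh : h ≤ h') (hw : 0 ≤ w (a, σ)) :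
    kern n b h' w a σ d ≤ kern n b h w a σ d := by
  have h1 : 0 ≤ Real.sqrt (2 * a) * max d 0 * w (a, σ) :=
    mul_nonneg (mul_nonneg (Real.sqrt_nonneg _) (le_max_right _ _)) hw
  have := mul_le_mul_of_nonneg_right hh h1
  simp only [kern]
  linarith

/-- The integrand of the row at scale `b` from the centre `x` along `du`, at `y`. -/
def rowK (G : (Fin n → ℝ) → Matrix (Fin n) (Fin n) ℝ) (D : (Fin n → ℝ) → (Fin n → ℝ) → ℝ)
    (u : (Fin n → ℝ) → ℝ) (w : ℝ × ℝ → ℝ) (b ρ : ℝ) (x y : Fin n → ℝ) : ℝ :=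
  kern n 1 (modelH n ρ) w (b ^ 2 * D x y)
    (b * (Dir.scos G D u y x * Real.sqrt (2 * D x y))) (Dir.scos G D u x y)

lemma pairSym_eq (h : IsCH G D) (u : (Fin n → ℝ) → ℝ) (w : ℝ × ℝ → ℝ) (b ρ : ℝ)
    (x y : Fin n → ℝ) :
    pairSym G D u w b ρ x y = 2 + rowK G D u w b ρ x y + rowK G D u w b ρ y x := by
  have e : (b * Real.sqrt (2 * D x y)) ^ 2 / 2 = b ^ 2 * D x y := by
    rw [mul_pow, Real.sq_sqrt (by linarith [h.dist_nonneg x y])]; ring
  simp only [pairSym, sym, rowK, e, Sharp.dist_symm h y x]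
  ring_nf

lemma rowK_eq (h : IsCH G D) (hw : ContDiff ℝ 1 w) {b : ℝ} (hb : 0 ≤ b) (ρ : ℝ)
    (u : (Fin n → ℝ) → ℝ) (x y : Fin n → ℝ) :
    kern n b (modelH n ρ * b) (scaled w b) (D x y) (Dir.side G D x (dirCov G u x) y)
      (Dir.scos G D u x y) = rowK G D u w b ρ x y := by
  rw [kern_scaled hw hb, side_dirCov h, rowK]

lemma continuous_kern (hw : ContDiff ℝ 1 w) (c : ℝ) :
    ContinuousOn (fun q : ℝ × ℝ × ℝ => kern n 1 c w q.1 q.2.1 q.2.2) {q | 0 ≤ q.1} := by
  have hd : ∀ v : ℝ × ℝ, Continuous fun q : ℝ × ℝ × ℝ => fderiv ℝ w (q.1, q.2.1) v :=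
    fun v => ((hw.continuous_fderiv one_ne_zero).comp
      (continuous_fst.prodMk (continuous_fst.comp continuous_snd))).clm_apply continuous_const
  have w1 : Continuous fun q : ℝ × ℝ × ℝ => w (q.1, q.2.1) :=
    hw.continuous.comp (continuous_fst.prodMk (continuous_fst.comp continuous_snd))
  have a1 : Continuous fun q : ℝ × ℝ × ℝ => Dir.wa w (q.1, q.2.1) := hd (1, 0)
  have b1 : Continuous fun q : ℝ × ℝ × ℝ => Dir.wb w (q.1, q.2.1) := hd (0, 1)
  have n1 : Continuous fun q : ℝ × ℝ × ℝ => Bend.csh (2 * 1 ^ 2 * q.1) :=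
    (Bend.contDiff_csh (k := 1)).continuous.comp (by fun_prop)
  have n2 : Continuous fun q : ℝ × ℝ × ℝ => 2 * Bend.cshd (2 * 1 ^ 2 * q.1) :=
    continuous_const.mul ((Bend.contDiff_cshd (k := 1)).continuous.comp (by fun_prop))
  have c1 : ContinuousOn (fun q : ℝ × ℝ × ℝ => Bend.cfac 1 q.1) {q | 0 ≤ q.1} :=
    n1.continuousOn.div n2.continuousOn fun q hq => (Bend.sfac_pos 1 hq).ne'
  have e1 : ContinuousOn (fun q : ℝ × ℝ × ℝ => Real.sqrt (2 * q.1 - q.2.1 ^ 2) / Bend.sfac 1 q.1)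
      {q | 0 ≤ q.1} :=
    (Continuous.continuousOn (by fun_prop)).div n2.continuousOn fun q hq => (Bend.sfac_pos 1 hq).ne'
  unfold kern
  exact ((((continuousOn_const.sub ((Continuous.continuousOn (by fun_prop)).pow 2)).add
    (c1.mul (Continuous.continuousOn (by fun_prop)))).mul w1.continuousOn).add
      (Continuous.continuousOn (by fun_prop))).sub
        ((Continuous.continuousOn (by fun_prop : Continuous fun q : ℝ × ℝ × ℝ =>
          |Dir.wb w (q.1, q.2.1)| * |q.2.2| * Real.sqrt (1 - q.2.2 ^ 2))).mul e1) |>.sub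
            (Continuous.continuousOn (by fun_prop))

lemma measurable_kern (hw : ContDiff ℝ 1 w) (c : ℝ) :
    Measurable fun q : ℝ × ℝ × ℝ => kern n 1 c w q.1 q.2.1 q.2.2 := by
  have m1 : Measurable fun q : ℝ × ℝ × ℝ => Bend.cfac 1 q.1 := by
    unfold Bend.cfac
    exact ((Bend.contDiff_csh (k := 1)).continuous.measurable.comp (by fun_prop)).div
      (((Bend.contDiff_cshd (k := 1)).continuous.measurable.comp (by fun_prop)).const_mul 2)
  have m2 : Measurable fun q : ℝ × ℝ × ℝ => Bend.sfac 1 q.1 := by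
    unfold Bend.sfac
    exact ((Bend.contDiff_cshd (k := 1)).continuous.measurable.comp (by fun_prop)).const_mul 2
  have hd : ∀ v : ℝ × ℝ, Measurable fun q : ℝ × ℝ × ℝ => fderiv ℝ w (q.1, q.2.1) v :=
    fun v => (((hw.continuous_fderiv one_ne_zero).comp
      (continuous_fst.prodMk (continuous_fst.comp continuous_snd))).clm_apply
        continuous_const).measurable
  have w1 : Measurable fun q : ℝ × ℝ × ℝ => w (q.1, q.2.1) :=
    (hw.continuous.comp (continuous_fst.prodMk (continuous_fst.comp continuous_snd))).measurable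
  have a1 := hd (1, 0)
  have b1 := hd (0, 1)
  unfold kern Dir.wa Dir.wb
  simp only [Real.sqrt_eq_rpow] at *
  exact ((((measurable_const.sub ((measurable_snd.comp measurable_snd).pow_const 2)).add
    (m1.mul (by fun_prop))).mul w1).add (by fun_prop)).sub
      ((by fun_prop : Measurable fun q : ℝ × ℝ × ℝ =>
        |fderiv ℝ w (q.1, q.2.1) (0, 1)| * |q.2.2| * (1 - q.2.2 ^ 2) ^ (1 / 2 : ℝ)).mul
        ((by fun_prop : Measurable fun q : ℝ × ℝ × ℝ => (2 * q.1 - q.2.1 ^ 2) ^ (1 / 2 : ℝ)).div m2))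
      |>.sub (((((measurable_fst.const_mul 2).pow_const (1 / 2 : ℝ)).const_mul c).mul
        ((measurable_snd.comp measurable_snd).max measurable_const)).mul w1)

/-- The pair integral is at most twice the square of the perimeter plus the rows. -/
theorem pair_le_rows (h : IsCH G D) {o : Fin n → ℝ} {R b ρ ε κ : ℝ} (hw : ContDiff ℝ 1 w)
    (hu : Comp {y | D o y ≤ R} u) (hs : 0 ≤ b)
    (hrow : ∀ x, D o x ≤ R → ∫ y, rowK G D u w b ρ x y ∂Sharp.pm G u ≤ κ) :
    ∫ x, (∫ y, (pairSym G D u w b ρ x y + ε) * (conorm G y (cd u y) * dens G y)) *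
        (conorm G x (cd u x) * dens G x) ≤
      (2 + ε) * per G u ^ 2 + 2 * (κ * per G u) := by
  have hK := h.proper o R
  have := Sharp.isFiniteMeasure_pm h hK hu
  obtain ⟨μ, hμ⟩ : ∃ μ, μ = Sharp.pm G u := ⟨_, rfl⟩
  have : IsFiniteMeasure μ := hμ ▸ this
  have hν : ∀ᵐ y ∂μ, y ∈ {y | D o y ≤ R} := hμ ▸ Sharp.ae_mem_pm h hK hu
  obtain ⟨B, hB⟩ := (hK.prod hK).bddAbove_image h.continuous_D.continuousOn
  obtain ⟨B', hB'⟩ : ∃ B', B' = max B 0 := ⟨_, rfl⟩
  obtain ⟨S, hS⟩ : ∃ S, S = b * Real.sqrt (2 * B') := ⟨_, rfl⟩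
  obtain ⟨C, hC⟩ := ((isCompact_Icc (a := (0 : ℝ)) (b := b ^ 2 * B')).prod
    ((isCompact_Icc (a := -S) (b := S)).prod
      (isCompact_Icc (a := (-1 : ℝ)) (b := 1)))).exists_bound_of_continuousOn
      ((continuous_kern (n := n) hw (modelH n ρ)).mono fun q hq => hq.1.1)
  obtain ⟨F, hF⟩ : ∃ F : (Fin n → ℝ) × (Fin n → ℝ) → ℝ,
      F = fun z => rowK G D u w b ρ z.1 z.2 := ⟨_, rfl⟩
  have hd := measurable_scos h hu.1
  have hc : Measurable fun z : (Fin n → ℝ) × (Fin n → ℝ) => Dir.scos G D u z.2 z.1 := by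
    simpa only [Function.comp_def, Prod.fst_swap, Prod.snd_swap] using
      hd.comp (measurable_swap (α := Fin n → ℝ) (β := Fin n → ℝ))
  have hFm : Measurable F := by
    have hr : Measurable fun z : (Fin n → ℝ) × (Fin n → ℝ) =>
        b * (Dir.scos G D u z.2 z.1 * Real.sqrt (2 * D z.1 z.2)) :=
      (hc.fun_mul (h.continuous_D.measurable.const_mul 2).sqrt).const_mul b
    have h3 := (measurable_kern (n := n) hw (modelH n ρ)).comp
      ((h.continuous_D.measurable.const_mul (b ^ 2)).prodMk (hr.prodMk hd))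
    rw [hF]
    simpa only [rowK, Function.comp_def] using h3
  have hae : ∀ᵐ z ∂μ.prod μ, z.1 ∈ {y | D o y ≤ R} ∧ z.2 ∈ {y | D o y ≤ R} :=
    (Measure.quasiMeasurePreserving_fst.ae hν).and (Measure.quasiMeasurePreserving_snd.ae hν)
  have hFb : ∀ᵐ z ∂μ.prod μ, ‖F z‖ ≤ C := hae.mono fun z hz => by
    obtain ⟨d0, d1⟩ : 0 ≤ D z.1 z.2 ∧ D z.1 z.2 ≤ B' :=
      ⟨h.dist_nonneg _ _, (hB ⟨z, ⟨hz.1, hz.2⟩, rfl⟩).trans (hB' ▸ le_max_left _ _)⟩
    rw [hF]
    refine hC (_, _, _) ⟨⟨mul_nonneg (sq_nonneg b) d0, mul_le_mul_of_nonneg_left d1 (sq_nonneg b)⟩, abs_le.1 ?_, scos_mem_Icc h u _ _⟩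
    rw [abs_mul, abs_mul, abs_of_nonneg hs, abs_of_nonneg (Real.sqrt_nonneg _), hS]
    exact mul_le_mul_of_nonneg_left ((mul_le_of_le_one_left (Real.sqrt_nonneg _)
      (Dir.scos_mem h u _ _)).trans (Real.sqrt_le_sqrt (by linarith))) hs
  have hFi : Integrable F (μ.prod μ) := Integrable.of_bound hFm.aestronglyMeasurable C hFb
  have hFs : Integrable (fun z => F z.swap) (μ.prod μ) := hFi.swap
  obtain ⟨Ker, hKer⟩ : ∃ Ker : (Fin n → ℝ) × (Fin n → ℝ) → ℝ,
      Ker = fun z => (2 + ε) + (F z + F z.swap) := ⟨_, rfl⟩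
  have hKi : Integrable Ker (μ.prod μ) := by
    rw [hKer]; exact (integrable_const _).add (hFi.fun_add hFs)
  have hP : μ.real univ = per G u := by
    rw [hμ, measureReal_def]; exact Sharp.pm_univ h hK hu
  have e1 : ∫ x, (∫ y, (pairSym G D u w b ρ x y + ε) * (conorm G y (cd u y) * dens G y)) *
      (conorm G x (cd u x) * dens G x) = ∫ z, Ker z ∂μ.prod μ := by
    rw [integral_prod _ hKi, hμ, Sharp.integral_pm h hu.1]
    refine integral_congr_ae (Eventually.of_forall fun x => ?_)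
    simp only [Sharp.integral_pm h hu.1, hKer, hF, Prod.swap_prod_mk]
    congr 1
    exact integral_congr_ae (Eventually.of_forall fun y => by
      simp only [pairSym_eq h]; ring)
  have e2 : ∫ z, F z ∂μ.prod μ ≤ κ * per G u := by
    rw [integral_prod _ hFi, ← hP]
    refine (integral_mono_ae hFi.integral_prod_left (integrable_const κ)
      (hν.mono fun x hx => ?_)).trans (le_of_eq (by rw [integral_const, smul_eq_mul, mul_comm]))
    subst hμ hF
    exact hrow x hx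
  rw [e1, hKer, integral_add (integrable_const _) (hFi.fun_add hFs), integral_const,
    integral_add hFi hFs, integral_prod_swap F, ← univ_prod_univ, measureReal_prod_prod, hP,
    smul_eq_mul]
  linarith

end Vale.Agent.P219.CH.GenK
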