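import Vale.Agent.P219.Gen.Defs
import Vale.Agent.P219.Gen.PolarBend
import Vale.Agent.P219.Bend.HessDist
import Vale.Agent.P219.Bend.Pins

/-!
# P219: certificates against the space form of curvature `-b ^ 2`, the pins

A certificate at `ρ` refers to curvature `-1` and the model ball of radius `ρ`; the curvature enters
through the scale `b`. With `P = b ^ (n - 1) per` and `V = b ^ n vol` the pair integral gives
`β V - E P ≤ radial / mass * P ^ 2`, an equality for the model ball of radius `ρ`.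
-/

noncomputable section

open MeasureTheory Set Filter Topology Matrix
open scoped ENNReal

namespace Vale.Agent.P219.CH.GenK

variable {n : ℕ}

/-- The integrand of the row per unit of `|du| dvol` in curvature at most `-b ^ 2`: `h` is the mean
curvature, `a` the half squared distance, `s` the component along the covector and `d` the signed
cosine. -/
def kern (n : ℕ) (b h : ℝ) (w : ℝ × ℝ → ℝ) (a s d : ℝ) : ℝ :=
  ((1 - d ^ 2) + Bend.cfac b a * (((n : ℝ) - 2) + d ^ 2)) * w (a, s)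
    + (1 - d ^ 2) * (2 * a * Dir.wa w (a, s) + s * Dir.wb w (a, s))
    - |Dir.wb w (a, s)| * |d| * Real.sqrt (1 - d ^ 2) * (Real.sqrt (2 * a - s ^ 2) / Bend.sfac b a)
    - h * Real.sqrt (2 * a) * max d 0 * w (a, s)

/-- The mean curvature of the model sphere of radius `ρ` in curvature `-1`. -/
def modelH (n : ℕ) (ρ : ℝ) : ℝ := ((n : ℝ) - 1) * Real.cosh ρ / Real.sinh ρ

/-- Twice the symmetrised integrand `1 + kern` in curvature `-1` against the ball of radius `ρ`. -/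
def sym (n : ℕ) (ρ : ℝ) (w : ℝ × ℝ → ℝ) (r c d : ℝ) : ℝ :=
  2 + kern n 1 (modelH n ρ) w (r ^ 2 / 2) (r * c) d +
    kern n 1 (modelH n ρ) w (r ^ 2 / 2) (r * d) c

/-- A certificate against the ball of radius `ρ` in curvature `-1`. The field `value` asks for
`β S - E sinh ρ ^ m ≥ sinh ρ ^ (2 m)` with `S` the radial integral and `E` the mean of `-a`. -/
structure CertAt (n : ℕ) [NeZero n] (ρ : ℝ) (a : ℝ → ℝ) (β : ℝ) : Prop where
  beta_nonneg : 0 ≤ β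
  measurable_a : Measurable a
  a_nonpos : ∀ c ∈ Icc (0 : ℝ) 1, a c ≤ 0
  a_bounded : ∃ B, ∀ c ∈ Icc (0 : ℝ) 1, -B ≤ a c
  value : Real.sinh ρ ^ (2 * (n - 1)) + Gen.cmean n (fun c => -a c) * Real.sinh ρ ^ (n - 1) ≤
    β * ∫ t in (0 : ℝ)..ρ, Real.sinh t ^ (n - 1)
  weight : ∀ ε T : ℝ, 0 < ε → 0 < T → ∃ w : ℝ × ℝ → ℝ, ContDiff ℝ 1 w ∧
    (∀ p q, 0 ≤ p → q ^ 2 ≤ 2 * p → 0 < w (p, q)) ∧
    (∀ r c d, r ∈ Icc 0 T → c ∈ Icc (-1 : ℝ) 1 → d ∈ Icc (-1 : ℝ) 1 → -ε ≤ sym n ρ w r c d) ∧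
    ∀ r c d, r ∈ Ioc 0 T → c ∈ Ioc (0 : ℝ) 1 → d ∈ Ioc (0 : ℝ) 1 →
      a c * d + a d * c + 2 * β * c * d * r - ε * (c * d) ≤ Real.sinh r ^ (n - 1) * sym n ρ w r c d

/-- Certificates against every ball of radius at most `ρ₀`. -/
def Cert (n : ℕ) [NeZero n] (ρ₀ : ℝ) : Prop :=
  ∀ ρ ∈ Ioc (0 : ℝ) ρ₀, ∃ (a : ℝ → ℝ) (β : ℝ), CertAt n ρ a β

/-- The signed pair integrand at scale `b`. -/
def pairSym (G : (Fin n → ℝ) → Matrix (Fin n) (Fin n) ℝ) (D : (Fin n → ℝ) → (Fin n → ℝ) → ℝ)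
    (u : (Fin n → ℝ) → ℝ) (w : ℝ × ℝ → ℝ) (b ρ : ℝ) (x y : Fin n → ℝ) : ℝ :=
  sym n ρ w (b * Real.sqrt (2 * D x y)) (Dir.scos G D u y x) (Dir.scos G D u x y)

/-! ## Pins -/

/-- The first variation with a directional weight in curvature at most `-b ^ 2`, for almost
minimisers of a functional penalised by a profile. -/
def RowPin (n : ℕ) : Prop :=
  2 ≤ n → ∀ (G : (Fin n → ℝ) → Matrix (Fin n) (Fin n) ℝ)
    (D : (Fin n → ℝ) → (Fin n → ℝ) → ℝ), IsCH G D → ∀ b : ℝ, Bend.BendCH G D b →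
    ∀ (o : Fin n → ℝ) (R P₀ v₀ M θ κ : ℝ) (Φ h : ℝ → ℝ), 0 < R → 0 ≤ P₀ → 0 < v₀ →
      Bend.IsProfile Φ h → 0 ≤ M → 1 < θ → 0 < κ →
    ∀ w : ℝ × ℝ → ℝ, ContDiff ℝ 1 w → (∀ a s, 0 ≤ a → s ^ 2 ≤ 2 * a → 0 < w (a, s)) →
    ∀ᶠ δ in 𝓝[>] (0 : ℝ), ∀ u, Bend.NearMinP G D o R P₀ v₀ Φ M δ u →
      ∀ x σ, D o x ≤ R → conorm G x σ ≤ 1 →
        Integrable (fun y => kern n b (θ * h (vol G u)) w (D x y) (Dir.side G D x σ y)
            (Dir.scos G D u x y)) (Sharp.pm G u) ∧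
          ∫ y, kern n b (θ * h (vol G u)) w (D x y) (Dir.side G D x σ y) (Dir.scos G D u x y)
            ∂Sharp.pm G u ≤ κ

/-- The pair integral along geodesics in curvature at most `-b ^ 2`. -/
def PairPin (n : ℕ) [NeZero n] : Prop :=
  2 ≤ n → ∀ (ρ : ℝ) (a : ℝ → ℝ) (β : ℝ), CertAt n ρ a β →
    ∀ (G : (Fin n → ℝ) → Matrix (Fin n) (Fin n) ℝ) (D : (Fin n → ℝ) → (Fin n → ℝ) → ℝ)
      (e : Six.Phase n → Fin n → ℝ) (b : ℝ), IsCH G D → 0 < b → Bend.BendCH G D b →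
      Six.IsExp G D e →
    ∀ (o : Fin n → ℝ) (R η ε T : ℝ) (w : ℝ × ℝ → ℝ) (u : (Fin n → ℝ) → ℝ),
      0 < η → η < 1 / 2 → 0 < ε →
      (∀ x y, D o x ≤ R → D o y ≤ R → b * Real.sqrt (2 * D x y) ≤ T) →
      ContDiff ℝ 1 w →
      (∀ r c d, r ∈ Icc 0 T → c ∈ Icc (-1 : ℝ) 1 → d ∈ Icc (-1 : ℝ) 1 → -ε ≤ sym n ρ w r c d) →
      (∀ r c d, r ∈ Ioc 0 T → c ∈ Ioc (0 : ℝ) 1 → d ∈ Ioc (0 : ℝ) 1 →
        a c * d + a d * c + 2 * β * c * d * r - ε * (c * d) ≤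
          Real.sinh r ^ (n - 1) * sym n ρ w r c d) →
      Comp {y | D o y ≤ R} u →
      Gen.mass n * (2 * β * b * ((1 - 2 * η) ^ 2 * (vol G u - gap G u / η))
          - (2 * Gen.cmean n (fun c => -a c) + ε) * per G u) ≤
        Gen.radial n * b ^ (n - 1) *
          ∫ x, (∫ y, (pairSym G D u w b ρ x y + ε) * (conorm G y (cd u y) * dens G y)) *
            (conorm G x (cd u x) * dens G x)

/-- The model profile up to the volume `V₀`, continued almost flat. -/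
def ProfilePin (n : ℕ) : Prop :=
  2 ≤ n → ∀ b l V₀ η : ℝ, 0 < b → 0 < l → 0 < V₀ → 0 < η →
    ∃ Φ h : ℝ → ℝ, Bend.IsProfile Φ h ∧
      (∀ V, 0 ≤ V → V ≤ V₀ → Φ V = Bend.modelProfile n b l V) ∧
      (∀ V, 0 < V → V ≤ V₀ → h V = Bend.modelSlope n b l V) ∧
      ∀ V, V₀ ≤ V → Φ V ≤ Bend.modelProfile n b l V₀ + η ∧ h V ≤ Bend.modelSlope n b l V₀

/-- The sharp inequality against the space form for model radius at most `ρ₀ / b`. -/
def SharpBend (n : ℕ) (ρ₀ : ℝ) : Prop :=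
  ∀ (G : (Fin n → ℝ) → Matrix (Fin n) (Fin n) ℝ) (D : (Fin n → ℝ) → (Fin n → ℝ) → ℝ), IsCH G D →
    ∀ b : ℝ, 0 < b → Bend.BendCH G D b →
    ∀ (Ω : Set (Fin n → ℝ)) (A : ℝ), MeasurableSet Ω → Bornology.IsBounded Ω →
      PerimeterLE G Ω A →
      ∀ r : ℝ, 0 ≤ r → b * r ≤ ρ₀ → Bend.unitBall n * modelVol n b r = volG G Ω →
        Bend.unitBall n * modelArea n b r ≤ A

/-- The assembly: certificates give the sharp inequality. -/
def AssemblyPin (n : ℕ) [NeZero n] : Prop :=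
  3 ≤ n → Bend.MinPinP n → RowPin n → Gen.MomentPin n → PairPin n → ProfilePin n →
    ∀ ρ₀ : ℝ, 0 < ρ₀ → Cert n ρ₀ → SharpBend n ρ₀

/-- The pair integral from its parts. -/
def PairAssemblyPin (n : ℕ) [NeZero n] : Prop :=
  Six.LinePin → Six.FlowPin n → Gen.PolarBendPin n → Gen.MomentPin n → PairPin n

end Vale.Agent.P219.CH.GenK
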