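import Vale.Agent.P219.GenK.Main
import Vale.Agent.P219.Bend.Hyperbolic

/-!
# The sharp inequality against the space form in terms of the volume
-/

noncomputable section

open MeasureTheory Set

namespace Vale.Agent.P219.CH.GenK

/-- A bound on the model radius is a bound on the volume. -/
theorem sharp_of_volume (n : ℕ) (hn : 1 ≤ n) {ρ₀ : ℝ} (hρ₀ : 0 ≤ ρ₀) (h : SharpBend n ρ₀)
    (G : (Fin n → ℝ) → Matrix (Fin n) (Fin n) ℝ) (D : (Fin n → ℝ) → (Fin n → ℝ) → ℝ)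
    (hCH : IsCH G D) {b : ℝ} (hb : 0 < b) (hbend : Bend.BendCH G D b)
    (Ω : Set (Fin n → ℝ)) (A : ℝ) (hΩ : MeasurableSet Ω) (hΩb : Bornology.IsBounded Ω)
    (hA : PerimeterLE G Ω A)
    (hV : volG G Ω ≤ Bend.unitBall n * modelVol n b (ρ₀ / b)) :
    ∃ r, 0 ≤ r ∧ r ≤ ρ₀ / b ∧ Bend.unitBall n * modelVol n b r = volG G Ω ∧
      Bend.unitBall n * modelArea n b r ≤ A := by
  have hw := Bend.unitBall_pos hn
  have h0 : 0 ≤ volG G Ω := setIntegral_nonneg hΩ fun y _ => (hCH.dens_pos y).le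
  obtain ⟨r, hr, hrV⟩ := exists_modelVol_eq hn b (div_nonneg h0 hw.le)
  have heq : Bend.unitBall n * modelVol n b r = volG G Ω := by
    rw [hrV, mul_div_cancel₀ _ hw.ne']
  have hle : r ≤ ρ₀ / b := by
    refine ((strictMonoOn_modelVol (by omega) b).le_iff_le hr
      (div_nonneg hρ₀ hb.le : (0 : ℝ) ≤ _)).1 ?_
    rw [← mul_le_mul_iff_right₀ hw, heq]
    exact hV
  refine ⟨r, hr, hle, heq, h G D hCH b hb hbend Ω A hΩ hΩb hA r hr ?_ heq⟩
  rw [le_div_iff₀ hb] at hle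
  linarith [mul_comm b r]

end Vale.Agent.P219.CH.GenK
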