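import Vale.Agent.P219.GenK.Defs
import Vale.Agent.P219.Bend.Model

/-!
# P219: the model profile up to a volume, continued almost flat
-/

noncomputable section

open MeasureTheory Set Filter Topology

namespace Vale.Agent.P219.CH.GenK

open Bend

variable {n : ℕ}

/-- The slope of the model profile decreases. -/
lemma modelSlope_anti (hn : 2 ≤ n) {b l : ℝ} (hl : 0 < l) {W V : ℝ} (hW : 0 < W) (hWV : W ≤ V) :
    modelSlope n b l V ≤ modelSlope n b l W := by
  have h1n : 1 ≤ n := by omega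
  have hω := unitBall_pos h1n
  obtain ⟨r, hr⟩ : ∃ r, r = modelRad n b (W / Bend.unitBall n) := ⟨_, rfl⟩
  obtain ⟨s, hs⟩ : ∃ s, s = modelRad n b (V / Bend.unitBall n) := ⟨_, rfl⟩
  have hrs : r ≤ s := hr ▸ hs ▸ modelRad_mono h1n b (div_nonneg hW.le hω.le)
    (div_le_div_of_nonneg_right hWV hω.le)
  have hr0 : 0 < r := hr ▸ modelRad_pos h1n b (div_pos hW hω)
  have hsr : 0 < sn b r := sn_pos b hr0
  have hss : 0 < sn b s := sn_pos b (hr0.trans_le hrs)
  have key := sn_nonneg b (sub_nonneg.2 hrs)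
  rw [sn_sub] at key
  have hn1 : (0 : ℝ) ≤ (n : ℝ) - 1 := sub_nonneg.2 (Nat.one_le_cast.2 h1n)
  simp only [modelSlope, ← hr, ← hs]
  refine mul_le_mul_of_nonneg_left ?_ hl.le
  rw [mul_div_assoc, mul_div_assoc]
  refine mul_le_mul_of_nonneg_left ?_ hn1
  rw [div_le_div_iff₀ hss hsr]
  linarith

/-- The slope times the volume is at most the profile. -/
lemma modelSlope_mul_le (hn : 2 ≤ n) {b l : ℝ} (hl : 0 < l) {W : ℝ} (hW : 0 < W) :
    modelSlope n b l W * W ≤ modelProfile n b l W := by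
  obtain ⟨k, rfl⟩ : ∃ k, n = k + 2 := ⟨n - 2, by omega⟩
  have h1n : 1 ≤ k + 2 := by omega
  have hω := unitBall_pos h1n
  obtain ⟨r, hr⟩ : ∃ r, r = modelRad (k + 2) b (W / Bend.unitBall (k + 2)) := ⟨_, rfl⟩
  have hr0 : 0 < r := hr ▸ modelRad_pos h1n b (div_pos hW hω)
  have hs := sn_pos b hr0
  have eW : Bend.unitBall (k + 2) * modelVol (k + 2) b r = W := by
    rw [hr, (modelRad_spec h1n b (div_nonneg hW.le hω.le)).2]
    field_simp
  have h := slope_mul_vol_le k b hr0.le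
  have h' : ((k : ℝ) + 1) * Real.cosh (b * r) / sn b r * modelVol (k + 2) b r
      ≤ modelArea (k + 2) b r := by
    rw [div_mul_eq_mul_div, div_le_iff₀ hs, modelArea, show k + 2 - 1 = k + 1 by omega,
      mul_assoc _ (sn b r ^ (k + 1)), ← pow_succ]
    push_cast
    exact h
  simp only [modelProfile, modelSlope, ← hr]
  rw [show ((k + 2 : ℕ) : ℝ) - 1 = (k : ℝ) + 1 by push_cast; ring]
  calc l * (((k : ℝ) + 1) * Real.cosh (b * r) / sn b r) * W
      = l * Bend.unitBall (k + 2) *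
          (((k : ℝ) + 1) * Real.cosh (b * r) / sn b r * modelVol (k + 2) b r) := by
        rw [← eW]; ring
    _ ≤ l * Bend.unitBall (k + 2) * modelArea (k + 2) b r :=
        mul_le_mul_of_nonneg_left h' (mul_pos hl hω).le
    _ = _ := by ring

/-- `ProfilePin`. -/
theorem profilePin (n : ℕ) : ProfilePin n := by
  intro hn b l V₀ η hb hl hV₀ hη
  have hP := modelPin n hn b l hb.le hl
  obtain ⟨m, hm⟩ : ∃ m, m = modelProfile n b l := ⟨_, rfl⟩
  obtain ⟨s, hs⟩ : ∃ s, s = modelSlope n b l := ⟨_, rfl⟩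
  rw [← hm, ← hs] at hP
  obtain ⟨c, hc⟩ : ∃ c, c = s V₀ := ⟨_, rfl⟩
  have hc0 : 0 < c := hc ▸ hP.slope_pos V₀ hV₀
  obtain ⟨k, hk⟩ : ∃ k, k = c / η := ⟨_, rfl⟩
  have hk0 : 0 < k := hk ▸ div_pos hc0 hη
  have hkη : c / k = η := by rw [hk]; field_simp
  have hanti : ∀ W V, 0 < W → W ≤ V → s V ≤ s W := fun W V hW hWV =>
    hs ▸ modelSlope_anti hn hl hW hWV
  have hsm : ∀ W, 0 < W → s W * W ≤ m W := fun W hW => hs ▸ hm ▸ modelSlope_mul_le hn hl hW
  obtain ⟨Φ, hΦ⟩ : ∃ Φ : ℝ → ℝ, Φ = fun V =>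
      m (min V V₀) + c * max (V - V₀) 0 / (1 + k * max (V - V₀) 0) := ⟨_, rfl⟩
  obtain ⟨h, hh⟩ : ∃ h : ℝ → ℝ, h = fun V =>
      s (min V V₀) / (1 + k * max (V - V₀) 0) ^ 2 := ⟨_, rfl⟩
  have hg : ∀ t : ℝ, 0 ≤ t → 0 < 1 + k * t := fun t ht => by positivity
  have hgs : ∀ t t' : ℝ, 0 ≤ t → t ≤ t' → c * t' / (1 + k * t') - c * t / (1 + k * t) ≤
      c / (1 + k * t) ^ 2 * (t' - t) := fun t t' ht htt => by
    have a := hg t ht
    have a' := hg t' (ht.trans htt)
    rw [div_sub_div _ _ a'.ne' a.ne', div_mul_eq_mul_div, div_le_div_iff₀ (mul_pos a' a) (by positivity)]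
    have : 0 ≤ c * k * (t' - t) ^ 2 * (1 + k * t) := by positivity
    linarith
  have hlow : ∀ V, V ≤ V₀ → Φ V = m V ∧ h V = s V := fun V hV => by
    simp [hΦ, hh, min_eq_left hV, max_eq_right (sub_nonpos.2 hV)]
  have hstep : ∀ V W, 0 < W → W ≤ V → Φ V - Φ W ≤ h W * (V - W) := fun V W hW hWV => by
    obtain ⟨a, ha⟩ : ∃ a, a = max (W - V₀) 0 := ⟨_, rfl⟩
    obtain ⟨a', ha'⟩ : ∃ a', a' = max (V - V₀) 0 := ⟨_, rfl⟩
    have ha0 : 0 ≤ a := ha ▸ le_max_right _ _
    have haa : a ≤ a' := ha ▸ ha' ▸ max_le_max (by linarith) le_rfl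
    have e1 : min V V₀ + a' = V := by
      rcases le_total V V₀ with h' | h' <;> simp [ha', h']
    have e2 : min W V₀ + a = W := by
      rcases le_total W V₀ with h' | h' <;> simp [ha, h']
    have hW' : 0 < min W V₀ := lt_min hW hV₀
    have hmn : min W V₀ ≤ min V V₀ := min_le_min hWV le_rfl
    have h1 := hP.step (min V V₀) (min W V₀) hW' hmn
    have h2 := hgs a a' ha0 haa
    have h3 : c / (1 + k * a) ^ 2 * (a' - a) ≤ s (min W V₀) / (1 + k * a) ^ 2 * (a' - a) := by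
      refine mul_le_mul_of_nonneg_right (div_le_div_of_nonneg_right ?_ (sq_nonneg _)) (by linarith)
      rw [hc]
      exact hanti _ _ hW' (min_le_right _ _)
    have h4 : s (min W V₀) * (min V V₀ - min W V₀) =
        s (min W V₀) / (1 + k * a) ^ 2 * (min V V₀ - min W V₀) := by
      rcases le_total W V₀ with h' | h'
      · simp [ha, h']
      · rw [min_eq_right h', min_eq_right (h'.trans hWV), sub_self, mul_zero, mul_zero]
    simp only [hΦ, hh, ← ha, ← ha']
    calc _ = (m (min V V₀) - m (min W V₀)) + (c * a' / (1 + k * a') - c * a / (1 + k * a)) := by ring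
      _ ≤ s (min W V₀) / (1 + k * a) ^ 2 * (min V V₀ - min W V₀) +
          s (min W V₀) / (1 + k * a) ^ 2 * (a' - a) := add_le_add (h4 ▸ h1) (h2.trans h3)
      _ = s (min W V₀) / (1 + k * a) ^ 2 * ((min V V₀ + a') - (min W V₀ + a)) := by ring
      _ = _ := by rw [e1, e2]
  have hzero : Φ 0 = 0 := by rw [(hlow 0 hV₀.le).1, hP.zero]
  have hhW : ∀ W, 0 < W → h W * W ≤ Φ W := fun W hW => by
    rcases le_total W V₀ with h' | h'
    · rw [(hlow W h').1, (hlow W h').2]; exact hsm W hW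
    · obtain ⟨t, rfl⟩ : ∃ t, W = V₀ + t := ⟨W - V₀, by ring⟩
      have ht : 0 ≤ t := by linarith
      simp only [hΦ, hh, min_eq_right h', add_sub_cancel_left, max_eq_left ht, ← hc]
      have a := hg t ht
      rw [div_mul_eq_mul_div, div_le_iff₀ (by positivity), add_mul,
        div_mul_eq_mul_div, sq, ← mul_assoc (c * t), mul_div_assoc, div_self a.ne', mul_one]
      have h0 := hsm V₀ hV₀
      rw [← hc] at h0
      have h1 : m V₀ ≤ m V₀ * ((1 + k * t) * (1 + k * t)) :=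
        le_mul_of_one_le_right ((mul_nonneg hc0.le hV₀.le).trans h0)
          (one_le_mul_of_one_le_of_one_le (le_add_of_nonneg_right (by positivity))
            (le_add_of_nonneg_right (by positivity)))
      have := mul_le_mul_of_nonneg_left (le_add_of_nonneg_right (show 0 ≤ k * t by positivity) :
        (1 : ℝ) ≤ 1 + k * t) (mul_nonneg hc0.le ht)
      linarith
  refine ⟨Φ, h, ⟨hzero, ?_, ?_, ?_, ?_, ?_, hstep⟩, fun V _ hV => hm ▸ (hlow V hV).1,
    fun V _ hV => hs ▸ (hlow V hV).2, fun V hV => ?_⟩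
  · intro W hW V hV hWV
    have hWm : (0 : ℝ) ≤ min W V₀ := le_min hW hV₀.le
    have h1 : m (min W V₀) ≤ m (min V V₀) :=
      hP.mono hWm (hWm.trans (min_le_min hWV le_rfl)) (min_le_min hWV le_rfl)
    simp only [hΦ]
    refine add_le_add h1 ?_
    have h2 : max (W - V₀) 0 ≤ max (V - V₀) 0 := max_le_max (by linarith) le_rfl
    have a := hg _ (le_max_right (W - V₀) 0)
    have a' := hg _ (le_max_right (V - V₀) 0)
    rw [div_le_div_iff₀ a a']
    have := mul_le_mul_of_nonneg_left h2 hc0.le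
    linarith
  · rw [hΦ]
    refine (hP.cont.comp (by fun_prop) fun V (hV : 0 ≤ V) => le_min hV hV₀.le).add
      (ContinuousOn.div (by fun_prop) (by fun_prop) fun V _ => (hg _ (le_max_right _ _)).ne')
  · intro V W hW hWV
    rcases hW.eq_or_lt with rfl | hW0
    · simp [hzero]
    · have h1 := mul_le_mul_of_nonneg_left (hstep V W hW0 hWV) hW0.le
      have h2 := mul_le_mul_of_nonneg_left (hhW W hW0) (sub_nonneg.2 hWV)
      linarith
  · rw [hh]
    exact (hP.cont_slope.comp (by fun_prop) fun V (hV : 0 < V) => lt_min hV hV₀).div (by fun_prop)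
      fun V _ => (pow_pos (hg _ (le_max_right _ _)) 2).ne'
  · intro V hV
    simp only [hh]
    exact div_pos (hP.slope_pos _ (lt_min hV hV₀)) (pow_pos (hg _ (le_max_right _ _)) 2)
  · have ht : 0 ≤ V - V₀ := by linarith
    simp only [hΦ, hh, min_eq_right hV, max_eq_left ht, ← hc, ← hm, ← hs]
    have a := hg _ ht
    refine ⟨add_le_add le_rfl ?_, div_le_self hc0.le (one_le_pow₀ (by linarith [mul_nonneg hk0.le ht]))⟩
    rw [div_le_iff₀ a, ← hkη, div_mul_eq_mul_div, le_div_iff₀ hk0]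
    linarith

end Vale.Agent.P219.CH.GenK
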