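import Vale.Agent.P219.GenK.Defs
import Vale.Agent.P219.Dir.BendRow

/-!
# P219: the row of `GenK` from the directional row in curvature at most `-b ^ 2`
-/

noncomputable section

open MeasureTheory Set Filter Topology Matrix

namespace Vale.Agent.P219.CH.GenK

variable {n : ℕ}

lemma kern_eq (b h : ℝ) (w : ℝ × ℝ → ℝ) (a s d : ℝ) :
    kern n b h w a s d = Dir.kernB n b h w a s d := by
  simp only [kern, Dir.kernB]
  ring

/-- `RowPin`. -/
theorem rowPin (n : ℕ) : RowPin n := by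
  intro hn G D hG b hb o R P₀ v₀ M θ κ Φ h hR hP₀ hv₀ hΦ hM hθ hκ w hw hpos
  refine (Dir.dirRowBendPin n hn G D hG b hb o R P₀ v₀ M θ κ Φ h hR hP₀ hv₀ hΦ hM hθ hκ {0}
    (fun _ => w) isCompact_singleton (hw.comp contDiff_snd) fun _ _ => hpos).mono
      fun δ hδ u hu x σ hx hσ => ?_
  simp only [kern_eq]
  exact hδ u hu x σ hx hσ 0 rfl

end Vale.Agent.P219.CH.GenK
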