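import Vale.Agent.P219.GenK.Assembly
import Vale.Agent.P219.GenK.PairAssembly
import Vale.Agent.P219.Gen.Moment
import Vale.Agent.P219.Six.Line
import Vale.Agent.P219.Six.Flow
import Vale.Agent.P219.Bend.Min
import Vale.Agent.P219.GenK.Row
import Vale.Agent.P219.GenK.Profile

/-!
# Certificates give the sharp inequality against the space form
-/

noncomputable section

namespace Vale.Agent.P219.CH.GenK

/-- Certificates up to `ρ₀` give the sharp inequality up to the model radius `ρ₀ / b`. -/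
theorem sharpBend_of_parts (n : ℕ) [NeZero n] (hn : 3 ≤ n) (hrow : RowPin n)
    (hprof : ProfilePin n) {ρ₀ : ℝ} (hρ₀ : 0 < ρ₀) (hcert : Cert n ρ₀) : SharpBend n ρ₀ :=
  assembly n hn (Bend.minPinP n) hrow (Gen.momentPin n)
    (pairAssembly n Six.Line.linePin (Six.flowPin n) (Gen.polarBendPin n) (Gen.momentPin n))
    hprof ρ₀ hρ₀ hcert

/-- Certificates up to `ρ₀` give the sharp inequality up to the model radius `ρ₀ / b`. -/
theorem sharpBend_of_cert (n : ℕ) [NeZero n] (hn : 3 ≤ n) {ρ₀ : ℝ} (hρ₀ : 0 < ρ₀)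
    (hcert : Cert n ρ₀) : SharpBend n ρ₀ :=
  sharpBend_of_parts n hn (rowPin n) (profilePin n) hρ₀ hcert

end Vale.Agent.P219.CH.GenK
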