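import Vale.Agent.P219.GenK.Defs
import Vale.Agent.P219.Gen.PairParts

/-!
# The three integrals over pairs on a line, curvature at most `-b ^ 2`
-/

noncomputable section

open MeasureTheory Set Filter Topology Matrix
open scoped ENNReal

namespace Vale.Agent.P219.CH.GenK

open Six (slp cosv)
open Gen (gl pairA pairW scos_mem_Icc measurable_scos)

variable {n : ℕ} {G : (Fin n → ℝ) → Matrix (Fin n) (Fin n) ℝ}
  {D : (Fin n → ℝ) → (Fin n → ℝ) → ℝ} {e : Six.Phase n → Fin n → ℝ}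
  {u : (Fin n → ℝ) → ℝ} {η ε s ρ : ℝ} {o : Fin n → ℝ} {R : ℝ}

/-- The pair integrand with the two densities of perimeter. -/
def pairB (G : (Fin n → ℝ) → Matrix (Fin n) (Fin n) ℝ) (D : (Fin n → ℝ) → (Fin n → ℝ) → ℝ)
    (u : (Fin n → ℝ) → ℝ) (w : ℝ × ℝ → ℝ) (s ρ ε : ℝ) (x y : Fin n → ℝ) : ℝ :=
  (pairSym G D u w s ρ x y + ε) * (conorm G x (cd u x) * conorm G y (cd u y))

lemma mul_sn {s : ℝ} (hs : s ≠ 0) (r : ℝ) : s * sn s r = Real.sinh (s * r) := by
  rw [sn, if_neg hs, mul_div_cancel₀ _ hs]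

lemma continuous_cfac_sq (b : ℝ) : Continuous fun r : ℝ => Bend.cfac b (r ^ 2 / 2) :=
  ((Bend.contDiff_csh (k := 1)).continuous.comp (by fun_prop)).div
    (continuous_const.mul ((Bend.contDiff_cshd (k := 1)).continuous.comp (by fun_prop)))
    fun r => (Bend.sfac_pos b (show (0 : ℝ) ≤ r ^ 2 / 2 by positivity)).ne'

lemma continuous_sfac_sq (b : ℝ) : Continuous fun r : ℝ => Bend.sfac b (r ^ 2 / 2) :=
  continuous_const.mul ((Bend.contDiff_cshd (k := 1)).continuous.comp (by fun_prop))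

lemma continuous_sym {w : ℝ × ℝ → ℝ} (hw : ContDiff ℝ 1 w) :
    Continuous fun q : ℝ × ℝ × ℝ => sym n ρ w q.1 q.2.1 q.2.2 := by
  have key : ∀ f g : ℝ × ℝ × ℝ → ℝ, Continuous f → Continuous g → Continuous fun q =>
      kern n 1 (modelH n ρ) w (q.1 ^ 2 / 2) (q.1 * f q) (g q) := by
    intro f g hf hg
    have hz : Continuous fun q : ℝ × ℝ × ℝ => (q.1 ^ 2 / 2, q.1 * f q) :=
      ((continuous_fst.pow 2).div_const 2).prodMk (continuous_fst.mul hf)
    have hd : ∀ v : ℝ × ℝ, Continuous fun q : ℝ × ℝ × ℝ => fderiv ℝ w (q.1 ^ 2 / 2, q.1 * f q) v :=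
      fun v => ((hw.continuous_fderiv one_ne_zero).comp hz).clm_apply continuous_const
    have w1 : Continuous fun q : ℝ × ℝ × ℝ => w (q.1 ^ 2 / 2, q.1 * f q) := hw.continuous.comp hz
    have a1 : Continuous fun q : ℝ × ℝ × ℝ => Dir.wa w (q.1 ^ 2 / 2, q.1 * f q) := hd (1, 0)
    have b1 : Continuous fun q : ℝ × ℝ × ℝ => Dir.wb w (q.1 ^ 2 / 2, q.1 * f q) := hd (0, 1)
    have c1 : Continuous fun q : ℝ × ℝ × ℝ => Bend.cfac 1 (q.1 ^ 2 / 2) :=
      (continuous_cfac_sq 1).comp continuous_fst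
    have e1 : Continuous fun q : ℝ × ℝ × ℝ =>
        Real.sqrt (2 * (q.1 ^ 2 / 2) - (q.1 * f q) ^ 2) / Bend.sfac 1 (q.1 ^ 2 / 2) :=
      (Real.continuous_sqrt.comp (by fun_prop)).div ((continuous_sfac_sq 1).comp continuous_fst)
        fun q => (Bend.sfac_pos 1 (show (0 : ℝ) ≤ q.1 ^ 2 / 2 by positivity)).ne'
    unfold kern
    fun_prop
  unfold sym
  exact (continuous_const.add (key _ _ (by fun_prop) (by fun_prop))).add
    (key _ _ (by fun_prop) (by fun_prop))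

lemma measurable_pairSym (h : IsCH G D) (hu : ContDiff ℝ 1 u) {w : ℝ × ℝ → ℝ}
    (hw : ContDiff ℝ 1 w) :
    Measurable fun z : (Fin n → ℝ) × (Fin n → ℝ) => pairSym G D u w s ρ z.1 z.2 := by
  have hd := measurable_scos h hu
  have hc0 := hd.comp (measurable_swap (α := Fin n → ℝ) (β := Fin n → ℝ))
  have hc : Measurable fun z : (Fin n → ℝ) × (Fin n → ℝ) => Dir.scos G D u z.2 z.1 := by
    simpa only [Function.comp_def, Prod.fst_swap, Prod.snd_swap] using hc0
  have hr : Measurable fun z : (Fin n → ℝ) × (Fin n → ℝ) => s * Real.sqrt (2 * D z.1 z.2) :=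
    ((h.continuous_D.measurable.const_mul 2).sqrt).const_mul s
  have h3 := (continuous_sym (n := n) (ρ := ρ) hw).measurable.comp (hr.prodMk (hc.prodMk hd))
  simp only [pairSym]
  simpa only [Function.comp_def] using h3

lemma measurable_pairB (h : IsCH G D) (hu : ContDiff ℝ 1 u) {w : ℝ × ℝ → ℝ}
    (hw : ContDiff ℝ 1 w) :
    Measurable fun z : (Fin n → ℝ) × (Fin n → ℝ) => pairB G D u w s ρ ε z.1 z.2 := by
  have h1 : Measurable fun z : (Fin n → ℝ) × (Fin n → ℝ) => pairSym G D u w s ρ z.1 z.2 + ε :=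
    (measurable_pairSym h hu hw).add_const ε
  have h2 : Measurable fun z : (Fin n → ℝ) × (Fin n → ℝ) =>
      conorm G z.1 (cd u z.1) * conorm G z.2 (cd u z.2) :=
    ((h.continuous_conorm_cd hu).measurable.comp measurable_fst).fun_mul
      ((h.continuous_conorm_cd hu).measurable.comp measurable_snd)
  exact h1.fun_mul h2

lemma pairB_nonneg (h : IsCH G D) (hu : Comp {y | D o y ≤ R} u) {w : ℝ × ℝ → ℝ} {T : ℝ}
    (hs : 0 ≤ s) (hT : ∀ x y, D o x ≤ R → D o y ≤ R → s * Real.sqrt (2 * D x y) ≤ T)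
    (hP : ∀ r c d, r ∈ Icc 0 T → c ∈ Icc (-1 : ℝ) 1 → d ∈ Icc (-1 : ℝ) 1 → -ε ≤ sym n ρ w r c d)
    (x y : Fin n → ℝ) : 0 ≤ pairB G D u w s ρ ε x y := by
  have hout : ∀ z, ¬D o z ≤ R → conorm G z (cd u z) = 0 := fun z hz => by
    rw [cd_eq_zero_of_notMem fun hs' => hz (hu.2.1 hs'), conorm_zero]
  by_cases hx : D o x ≤ R
  swap
  · simp [pairB, hout x hx]
  by_cases hy : D o y ≤ R
  swap
  · simp [pairB, hout y hy]
  refine mul_nonneg ?_ (mul_nonneg (conorm_nonneg _ _) (conorm_nonneg _ _))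
  have := hP _ _ _ ⟨mul_nonneg hs (Real.sqrt_nonneg _), hT x y hx hy⟩
    (scos_mem_Icc h u y x) (scos_mem_Icc h u x y)
  unfold pairSym
  linarith

/-- The pointwise inequality in real numbers. -/
theorem pair_point {a : ℝ → ℝ} {w : ℝ × ℝ → ℝ} {α β cx cy N t b T : ℝ} (hα : 0 < α) (hβ : 0 < β)
    (hN : 0 < N) (ht : 0 < t) (hs : 0 < s) (hε : 0 ≤ ε) (hcx : α ≤ cx * N) (hcy : β ≤ cy * N)
    (hT : s * (t * N) ≤ T)
    (hF : ∀ r c d, r ∈ Ioc 0 T → c ∈ Ioc (0 : ℝ) 1 → d ∈ Ioc (0 : ℝ) 1 →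
      a c * d + a d * c + 2 * b * c * d * r - ε * (c * d) ≤ Real.sinh r ^ (n - 1) * sym n ρ w r c d) :
    2 * b * s * t * (α * β) ≤
      s ^ (n - 1) * ((sym n ρ w (s * (t * N)) (α / (cx * N)) (β / (cy * N)) + ε) * (cx * cy)) *
          (sn s (t * N) ^ (n - 1) * N) +
        α * β * ((ε + -a (α / (cx * N)) / (α / (cx * N))) / N) +
        α * β * ((0 + -a (β / (cy * N)) / (β / (cy * N))) / N) := by
  have hcx0 : 0 < cx := pos_of_mul_pos_left (hα.trans_le hcx) hN.le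
  have hcy0 : 0 < cy := pos_of_mul_pos_left (hβ.trans_le hcy) hN.le
  obtain ⟨c, hc⟩ : ∃ c, c = α / (cx * N) := ⟨_, rfl⟩
  obtain ⟨d, hd⟩ : ∃ d, d = β / (cy * N) := ⟨_, rfl⟩
  rw [← hc, ← hd]
  have hc0 : 0 < c := by rw [hc]; positivity
  have hd0 : 0 < d := by rw [hd]; positivity
  have hp := mul_le_mul_of_nonneg_left (hF (s * (t * N)) c d ⟨by positivity, hT⟩
    ⟨hc0, hc ▸ (div_le_one (by positivity)).2 hcx⟩ ⟨hd0, hd ▸ (div_le_one (by positivity)).2 hcy⟩)
    (by positivity : 0 ≤ cx * cy * N)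
  have e1 : c * d * (cx * cy * N) = α * β / N := by rw [hc, hd]; field_simp
  have eA : α * β / N * N = α * β := div_mul_cancel₀ _ hN.ne'
  have eL : cx * cy * N * (a c * d + a d * c + 2 * b * c * d * (s * (t * N)) - ε * (c * d)) =
      2 * b * s * t * (α * β) - α * β * ((ε + -a c / c) / N) - α * β * ((0 + -a d / d) / N) := by
    rw [show α * β * ((ε + -a c / c) / N) = α * β / N * (ε + -a c / c) by ring,
      show α * β * ((0 + -a d / d) / N) = α * β / N * (0 + -a d / d) by ring,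
      show 2 * b * s * t * (α * β) = α * β / N * (2 * b * (s * (t * N))) by rw [← eA]; field_simp,
      ← e1]
    field_simp
    ring
  have hsh : 0 ≤ Real.sinh (s * (t * N)) := Real.sinh_nonneg_iff.2 (by positivity)
  have hextra : 0 ≤ cx * cy * N * (Real.sinh (s * (t * N)) ^ (n - 1) * ε) := by positivity
  rw [eL] at hp
  have e4 : s ^ (n - 1) * ((sym n ρ w (s * (t * N)) c d + ε) * (cx * cy)) * (sn s (t * N) ^ (n - 1) * N) =
      cx * cy * N * (Real.sinh (s * (t * N)) ^ (n - 1) * sym n ρ w (s * (t * N)) c d) +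
        cx * cy * N * (Real.sinh (s * (t * N)) ^ (n - 1) * ε) := by
    rw [← mul_sn hs.ne', mul_pow]; ring
  rw [e4]
  linarith

/-- The pointwise inequality in the coordinates of one geodesic. -/
theorem pairA_le (hflow : Six.FlowPin n) (h : IsCH G D) (he : Six.IsExp G D e)
    (hu : Comp {y | D o y ≤ R} u) {a : ℝ → ℝ} {w : ℝ × ℝ → ℝ} {b T : ℝ} (hb : 0 ≤ b)
    (hs : 0 < s) (hε : 0 ≤ ε)
    (hT : ∀ x y, D o x ≤ R → D o y ≤ R → s * Real.sqrt (2 * D x y) ≤ T)
    (hP : ∀ r c d, r ∈ Icc 0 T → c ∈ Icc (-1 : ℝ) 1 → d ∈ Icc (-1 : ℝ) 1 → -ε ≤ sym n ρ w r c d)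
    (hF : ∀ r c d, r ∈ Ioc 0 T → c ∈ Ioc (0 : ℝ) 1 → d ∈ Ioc (0 : ℝ) 1 →
      a c * d + a d * c + 2 * b * c * d * r - ε * (c * d) ≤ Real.sinh r ^ (n - 1) * sym n ρ w r c d)
    (p : Six.Phase n) {t : ℝ} (ht : 0 < t) :
    ENNReal.ofReal (2 * b * s) * (pairA e u η (p, t) * ENNReal.ofReal t) ≤
      ENNReal.ofReal (s ^ (n - 1)) *
          (ENNReal.ofReal (pairB G D u w s ρ ε p.1 (Six.line e p t)) *
            ENNReal.ofReal (sn s (t * Six.vnorm G p.1 p.2) ^ (n - 1) * Six.vnorm G p.1 p.2)) +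
      pairA e u η (p, t) * pairW G u a ε p +
      pairA e u η (p, t) * pairW G u a 0 (Six.flow e t p) := by
  obtain ⟨hsymm, -, -, -, -, -, hN, hD, hgrad, -⟩ := hflow G D e h he
  by_cases hz : (p, t) ∈ {z : Six.Phase n × ℝ | 0 < z.2 ∧ Six.Paired η (gl e u z.1) 0 z.2}
  swap
  · simp [pairA, Set.indicator_of_notMem hz]
  simp only [pairA, Set.indicator_of_mem hz]
  rcases le_or_gt (slp u p) 0 with ha | ha
  · simp [ENNReal.ofReal_of_nonpos ha]
  rcases le_or_gt (-slp u (Six.flow e t p)) 0 with hb' | hb'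
  · simp [ENNReal.ofReal_of_nonpos hb']
  have hin : ∀ q : Six.Phase n, slp u q ≠ 0 → D o q.1 ≤ R := fun q hq =>
    hu.2.1 (by
      by_contra hn
      exact hq (by simp [slp, cd_eq_zero_of_notMem hn]))
  obtain ⟨Np, hNp⟩ : ∃ Np, Np = Six.vnorm G p.1 p.2 := ⟨_, rfl⟩
  have hcx : slp u p ≤ conorm G p.1 (cd u p.1) * Np :=
    hNp ▸ (le_abs_self _).trans (h.dotProduct_le _ _ _)
  have hcy : -slp u (Six.flow e t p) ≤
      conorm G (Six.line e p t) (cd u (Six.line e p t)) * Np := by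
    have := (neg_le_abs _).trans
      (h.dotProduct_le (Six.flow e t p).1 (cd u (Six.flow e t p).1) (Six.flow e t p).2)
    rw [hN, ← hNp] at this
    exact this
  have hN0 : 0 < Np := pos_of_mul_pos_right (ha.trans_le hcx) (conorm_nonneg _ _)
  have hr : Real.sqrt (2 * D p.1 (Six.line e p t)) = t * Np := by
    rw [hD, ← hNp, show 2 * (t ^ 2 * Np ^ 2 / 2) = (t * Np) ^ 2 by ring,
      Real.sqrt_sq (by positivity)]
  have hc : Dir.scos G D u (Six.line e p t) p.1 =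
      slp u p / (conorm G p.1 (cd u p.1) * Np) := by
    have hl := he.logv_exp p.1 (t • p.2)
    unfold Dir.scos normalPart pairing
    rw [hsymm (Six.line e p t) p.1, hr,
      show (G p.1)⁻¹ *ᵥ cd (D (Six.line e p t)) p.1 = grad G (D (Six.line e p t)) p.1 from rfl,
      show grad G (D (Six.line e p t)) p.1 = -(t • p.2) by
        rw [← hl, Six.logv, neg_neg]; rfl,
      dotProduct_neg, dotProduct_smul, neg_neg, smul_eq_mul]
    rw [show cd u p.1 ⬝ᵥ p.2 = slp u p from rfl]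
    field_simp
  have hd : Dir.scos G D u p.1 (Six.line e p t) =
      -slp u (Six.flow e t p) / (conorm G (Six.line e p t) (cd u (Six.line e p t)) * Np) := by
    unfold Dir.scos normalPart pairing
    rw [hr, show (G (Six.line e p t))⁻¹ *ᵥ cd (D p.1) (Six.line e p t) =
        grad G (D p.1) (Six.line e p t) from rfl,
      hgrad, dotProduct_smul, smul_eq_mul,
      show cd u (Six.line e p t) ⬝ᵥ (Six.flow e t p).2 = slp u (Six.flow e t p) from rfl]
    field_simp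
  have hTp : s * (t * Np) ≤ T :=
    hr ▸ hT _ _ (hin p ha.ne') (hin (Six.flow e t p) (by linarith [hb']))
  have key := pair_point (n := n) (a := a) (w := w) (b := b) ha hb' hN0 ht hs hε hcx hcy hTp hF
  have hv0 : cosv G u p = slp u p / (conorm G p.1 (cd u p.1) * Np) := by
    rw [cosv, abs_of_pos ha, ← hNp]
  have hv1 : cosv G u (Six.flow e t p) =
      -slp u (Six.flow e t p) / (conorm G (Six.line e p t) (cd u (Six.line e p t)) * Np) := by
    rw [cosv, hN, abs_of_neg (by linarith : slp u (Six.flow e t p) < 0), ← hNp]; rfl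
  have hBe : pairB G D u w s ρ ε p.1 (Six.line e p t) =
      (sym n ρ w (s * (t * Np)) (slp u p / (conorm G p.1 (cd u p.1) * Np))
        (-slp u (Six.flow e t p) / (conorm G (Six.line e p t) (cd u (Six.line e p t)) * Np)) + ε) *
      (conorm G p.1 (cd u p.1) * conorm G (Six.line e p t) (cd u (Six.line e p t))) := by
    rw [pairB, pairSym, hr, hc, hd]
  have hB0 := pairB_nonneg h hu hs.le hT hP p.1 (Six.line e p t)
  rw [pairW, pairW, hv0, hv1, hN, ← hNp]
  simp only [← ENNReal.ofReal_mul (show 0 ≤ 2 * b * s by positivity), ← ENNReal.ofReal_mul ha.le,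
    ← ENNReal.ofReal_mul (mul_pos ha hb').le, ← ENNReal.ofReal_mul hB0,
    ← ENNReal.ofReal_mul (pow_nonneg hs.le (n - 1))]
  rw [hBe]
  exact (ENNReal.ofReal_le_ofReal (le_of_eq_of_le (by ring) (key.trans_eq (by ring)))).trans
    ((ENNReal.ofReal_add_le).trans (add_le_add ENNReal.ofReal_add_le le_rfl))

end Vale.Agent.P219.CH.GenK
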